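import Crest.Agent.R231.L.Loc
import Crest.Agent.R231.L.Gauge

/-! R231, block L: Tate operators and the localization theorem (see notes231/R231.md, section L).
`sig 0 = (1 + r) g`, `g` = action of `[0, 1/2]`, `sig k = 0` for `k ≥ 1`; a gauge transformation (`L/Gauge`) identifies
`DD` with the Tate differential `DT` of the half rotation `r`, for which `RA_fix` (`L/Loc`) is the localization theorem. -/

set_option autoImplicit false
set_option linter.unusedVariables false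
set_option linter.unusedSectionVars false
open Set
open scoped Classical

noncomputable section
namespace Crest.Agent.R231

theorem exists_fill : ∃ a : Ch ℝ, Hom 3 a ∧ dd a = mulR (seg 0 (1 / 2)) (seg 0 (1 / 2)) := by
  have hc : Continuous fun p : ℝ × ℝ => p.1 + p.2 := by fun_prop
  have h2 : Hom 2 (mulR (seg 0 (1 / 2)) (seg 0 (1 / 2))) := ((hom_seg _ _).cr (hom_seg _ _)).mp _
  have hd : dd (mulR (seg 0 (1 / 2)) (seg 0 (1 / 2))) = 0 := by
    have e : ∀ (s : ℝ) (c : Ch ℝ), mp (fun p : ℝ × ℝ => p.1 + p.2) (cr (pt s) c) =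
        mp (fun p : ℝ × ℝ => p.1 + p.2) (cr c (pt s)) := fun s c => by
      rw [cr_pt_left, cr_pt_right, mp_comp (mem_sup_univ c) (by fun_prop), mp_comp (mem_sup_univ c) (by fun_prop)]
      simp only [add_comm]
    rw [mulR, ← mp_dd (mem_sup_univ _) hc.continuousOn, dd_cr, dd_seg]
    simp only [map_add, LinearMap.add_apply, e, add_self]
  obtain ⟨w, -, hw⟩ := cycle_convex convex_univ (mem_univ (0 : ℝ)) (mem_sup_univ _) hd
  refine ⟨pr 3 w, hom_pr _ _, ?_⟩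
  rw [dd_pr, hw, h2.aug two_ne_zero, zero_smul, add_zero, h2]

namespace Setup
variable {n : ℕ} (G : Setup n)

theorem sig_eq (c : Ch G.Loop) : G.act (seg 0 (1 / 2) + seg (1 / 2) 1) c =
    G.act (seg 0 (1 / 2)) (c + mp G.rh c) := by
  have := mp_seg_affine 0 (1 / 2) 1 (1 / 2)
  simp only [one_mul, zero_add, add_halves] at this
  rw [act_add, map_add, ← this, act_translate, rh]

theorem rh_act (b : Ch ℝ) (c : Ch G.Loop) : mp G.rh (G.act b c) = G.act b (mp G.rh c) := G.shift_act _ b c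

theorem dd_g (c : Ch G.Loop) :
    dd (G.act (seg 0 (1 / 2)) c) = G.act (seg 0 (1 / 2)) (dd c) + (c + mp G.rh c) := by
  rw [dd_act, dd_seg, act_add, act_pt, act_pt, add_comm, funext (shift_zero (G := G)), mp_id, rh]

theorem exists_gau : ∃ h : Ch G.Loop →ₗ[F2] Ch G.Loop,
    Gau G.rh (G.act (seg 0 (1 / 2) + seg (1 / 2) 1)) (G.act (seg 0 (1 / 2))) h ∧
    ∀ A : Set G.Loop, (∀ s, MapsTo (Loop.shift s) A A) → ∀ c ∈ sup A, h c ∈ sup A := by
  obtain ⟨a, ha, hd⟩ := exists_fill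
  obtain ⟨h, e⟩ : ∃ h : Ch G.Loop →ₗ[F2] Ch G.Loop, ∀ c, h c = G.act a (c + mp G.rh c) :=
    ⟨G.act a ∘ₗ (LinearMap.id + mp G.rh), fun c => by
      rw [LinearMap.comp_apply, LinearMap.add_apply, LinearMap.id_apply]⟩
  refine ⟨h, ⟨G.dd_g, fun c => ?_, fun c => ?_, fun c => ?_,
    fun c => ?_, fun i c => G.act_pr (hom_seg _ _) i c, fun i c => ?_⟩, fun A hA c hc => ?_⟩
  · rw [e, e, dd_act, hd, ← act_act, sig_eq, map_add dd, G.inv_rh.dd, add_comm]
  · rw [sig_eq, map_add, ← add_assoc, add_self, zero_add, rh_act]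
  · rw [e, rh_act, map_add (mp G.rh), G.inv_rh.rr, add_comm]
  · rw [e, sig_eq, rh_act, ← map_add, map_add (mp G.rh), G.inv_rh.rr, add_comm (mp G.rh c), add_self, map_zero,
      map_zero]
  · rw [e, e, mp_pr, ← map_add, G.act_pr ha]
  · rw [e]
    exact G.act_mem hA _ (add_mem hc (mp_mem hc (hA (1 / 2))))

theorem sig_Fx {l : ℝ} {c : Ch G.Loop} (h : c ∈ sup (G.Fx l)) :
    G.act (seg 0 (1 / 2) + seg (1 / 2) 1) c = 0 := by
  rw [sig_eq, G.rh_Fx h, add_self, map_zero]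

theorem DD_Fx {l : ℝ} {z : ℕ → Ch G.Loop} (h : PP (sup (G.Fx l)) z) (i : ℕ) :
    DD dd (sgm (G.act (seg 0 (1 / 2) + seg (1 / 2) 1))) z i = dd (z (i + 1)) := by
  cases i with
  | zero => exact DD_zero _ _
  | succ i => rw [DD_succ, G.sig_Fx (h i).2, add_zero]

theorem exists_sig : ∃ sig : ℕ → Ch G.Loop →ₗ[F2] Ch G.Loop,
    (∀ k i c, sig k (pr i c) = pr (i + (2 * k + 1)) (sig k c)) ∧
    (∀ k c, dd (sig k c) = sig k (dd c)) ∧ (∀ k k' c, sig k (sig k' c) = 0) ∧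
    (∀ A : Set G.Loop, (∀ s, MapsTo (Loop.shift s) A A) → ∀ k, ∀ c ∈ sup A, sig k c ∈ sup A) ∧
    (∀ c, sig 0 c = G.act (seg 0 (1 / 2) + seg (1 / 2) 1) c) ∧ (∀ k c, sig k (G.jC c) = 0) ∧
    (∀ l, 0 < l → ∀ z : ℕ → Ch G.Loop, (∀ i, pr i (z i) = z i ∧ z i ∈ sup (G.Lt (2 * l))) →
      (∀ i, DD dd sig z i = 0) →
      ∃ y η : ℕ → Ch G.Loop, (∀ i, pr i (y i) = y i ∧ y i ∈ sup (G.Lt l) ∧ dd (y i) = 0) ∧
        (∀ i, pr i (η i) = η i ∧ η i ∈ sup (G.Lt (2 * l))) ∧ ∀ i, z i = G.jC (y i) + DD dd sig η i) ∧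
    (∀ l, 0 < l → ∀ y η : ℕ → Ch G.Loop, (∀ i, pr i (y i) = y i ∧ y i ∈ sup (G.Lt l) ∧ dd (y i) = 0) →
      (∀ i, pr i (η i) = η i ∧ η i ∈ sup (G.Lt (2 * l))) → (∀ i, G.jC (y i) = DD dd sig η i) →
      ∀ i, ∃ v ∈ sup (G.Lt l), dd v = y i) := by
  obtain ⟨h, H, hh⟩ := G.exists_gau
  have hL : ∀ l s, MapsTo (Loop.shift s) (G.Lt l) (G.Lt l) := fun l s γ h => h
  set s := G.act (seg 0 (1 / 2) + seg (1 / 2) 1) with hs
  set g := G.act (seg 0 (1 / 2)) with hg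
  have gL : ∀ l, ∀ c ∈ sup (G.Lt l), g c ∈ sup (G.Lt l) := fun l c => G.act_mem (hL l) _
  have gF : ∀ l, ∀ c ∈ sup (G.Fx l), g c ∈ sup (G.Fx l) := fun l c => G.act_mem (G.Fx_shift l) _
  have g0 : gau g h 0 = 0 := by simpa using gau_add g h 0 0
  refine ⟨sgm s, ?_, ?_, ?_, ?_, fun c => rfl, ?_, fun l hl z hz hD => ?_, fun l hl y η hy hη hD i => ?_⟩
  · rintro (_ | k) i c
    · exact G.act_pr ((hom_seg _ _).add (hom_seg _ _)) i c
    · exact (map_zero _).symm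
  · rintro (_ | k) c
    · show dd (s c) = s (dd c)
      rw [hs, dd_act, map_add dd, dd_seg, dd_seg, add_assoc, ← add_assoc (pt _) (pt _) (pt 1), add_self,
        zero_add, act_add, act_pt, act_pt, mp_shift_one, funext (shift_zero (G := G)), mp_id, add_self, zero_add]
    · exact map_zero _
  · rintro (_ | k) (_ | k') c
    · show s (s c) = 0
      rw [hs, sig_eq, sig_eq, rh_act, ← map_add, map_add (mp G.rh), G.inv_rh.rr, add_comm (mp G.rh c), add_self,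
        map_zero, map_zero]
    · exact map_zero _
    · rfl
    · rfl
  · rintro A hA (_ | k) c hc
    · exact G.act_mem hA _ hc
    · exact zero_mem _
  · rintro (_ | k) c
    · obtain ⟨l, hl⟩ := exists_mem_Lt c
      exact G.sig_Fx (jC_mem hl)
    · rfl
  · have hz : PP (sup (G.Lt (2 * l))) z := hz
    have e0 : DT G.rh (gau g h z) = 0 := by rw [H.DT_gau hz.dd_zero, funext hD]; exact g0
    obtain ⟨ξ, hξ, hf⟩ := RA_fix hl _ (H.gau_mem (gL _) (hh _ (hL _)) hz)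
      (e0 ▸ fun i => ⟨map_zero _, zero_mem _⟩)
    rw [← gau_ginv g h ξ] at hξ hf
    have hη := H.mem_of_gau (gL _) (hh _ (hL _)) hξ
    rw [H.DT_gau hη.dd_zero, ← gau_add] at hf
    have hy := H.mem_of_gau (gF _) (hh _ (G.Fx_shift _)) hf
    have e1 : DD dd (sgm s) (z + DD dd (sgm s) (ginv g h ξ)) = 0 := H.inj (by
      rw [← H.DT_gau hy.dd_zero, gau_add, DT_add, e0, ← H.DT_gau hη.dd_zero, G.inv_rh.DT_DT, g0, add_zero])
    refine ⟨fun i => mp G.half ((z + DD dd (sgm s) (ginv g h ξ)) i), ginv g h ξ, fun i =>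
      ⟨by rw [← mp_pr, (hy i).1], half_mem (hy i).2, ?_⟩, hη, fun i => ?_⟩
    · rw [← mp_dd (hy i).2 (continuousOn_half _)]
      cases i with
      | zero => rw [hy.dd_zero, map_zero]
      | succ i => rw [← G.DD_Fx hy, e1, Pi.zero_apply, map_zero]
    · rw [jC_half (hy i).2, Pi.add_apply, add_assoc, add_self, add_zero]
  · have hη : PP (sup (G.Lt (2 * l))) η := hη
    have hy' : PP (sup (G.Fx (2 * l))) fun i => G.jC (y i) := fun i =>
      ⟨by rw [jC, ← mp_pr, (hy i).1], jC_mem (hy i).2.1⟩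
    have e0 : DT G.rh (gau g h η) = gau g h fun i => G.jC (y i) := by rw [H.DT_gau hη.dd_zero, funext hD]
    obtain ⟨ξ, hξ, hf⟩ := RA_fix hl _ (H.gau_mem (gL _) (hh _ (hL _)) hη)
      (e0 ▸ H.gau_mem (gF _) (hh _ (G.Fx_shift _)) hy')
    have e1 := gau_ginv g h (gau g h η + DT G.rh ξ)
    have hf' := H.mem_of_gau (gF _) (hh _ (G.Fx_shift _)) (e1.symm ▸ hf)
    have e2 : DD dd (sgm s) (ginv g h (gau g h η + DT G.rh ξ)) = fun i => G.jC (y i) := H.inj (by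
      rw [← H.DT_gau hf'.dd_zero, e1, DT_add, G.inv_rh.DT_DT, add_zero, e0])
    refine ⟨_, half_mem (hf' (i + 1)).2, ?_⟩
    rw [← mp_dd (hf' _).2 (continuousOn_half _), ← G.DD_Fx hf', e2, half_jC]

end Setup
end Crest.Agent.R231
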