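import Crest.Agent.R231.L.Seq
import Crest.Agent.R231.D.Main
import Crest.Agent.R231.Act

/-! R231, block L: localization for the half rotation. -/

set_option autoImplicit false
set_option linter.unusedVariables false
set_option linter.unusedSectionVars false
open Set
open scoped Classical

noncomputable section
namespace Crest.Agent.R231
namespace Setup
variable {n : ℕ} (G : Setup n)

/-- the half rotation -/
def rh : G.Loop → G.Loop := Loop.shift (1 / 2)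

/-- its fixed points of level `< l` -/
def Fx (l : ℝ) : Set G.Loop := G.Lt l ∩ {γ | G.rh γ = γ}

theorem inv_rh : Inv G.rh where
  cont := continuous_shift.comp (continuous_const.prodMk continuous_id)
  inv γ := by rw [rh, shift_shift, add_halves, shift_one]

theorem Fx_shift (l s : ℝ) : MapsTo (Loop.shift s) (G.Fx l) (G.Fx l) := fun γ h => ⟨h.1, by
  show (γ.shift s).shift (1 / 2) = γ.shift s
  rw [shift_shift, add_comm, ← shift_shift]
  exact congrArg _ h.2⟩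

theorem rh_Fx {l : ℝ} {c : Ch G.Loop} (h : c ∈ sup (G.Fx l)) : mp G.rh c = c :=
  (mp_congr h fun γ hγ => hγ.2).trans (mp_id c)

/-- halving -/
def half (γ : G.Loop) : G.Loop := G.toLoop (mkC (γ.T / 2) fun t => γ.ev (t / 2))

variable {G}

theorem half_isLoop {γ : G.Loop} (h : G.rh γ = γ) : G.IsLoop (mkC (γ.T / 2) fun t => γ.ev (t / 2)) := by
  refine ⟨by have := γ.T_nonneg; simp only [mkC_fst]; linarith, fun t => ?_, fun s t => ?_⟩
  · simp only [mkC_ev]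
    conv_rhs => rw [← h]
    rw [rh, shift_ev, add_div]
  · have := γ.lip (s / 2) (t / 2)
    rw [← sub_div, abs_div, abs_two] at this
    simp only [mkC_ev, mkC_fst]
    linarith

theorem dbl_half {γ : G.Loop} (h : G.rh γ = γ) : (G.half γ).dbl = γ :=
  Loop.ext' (by rw [dbl_T, half, toLoop_T (half_isLoop h)]; ring) fun t => by
    rw [dbl_ev, half, toLoop_ev (half_isLoop h)]; congr 1; ring

theorem rh_dbl (γ : G.Loop) : G.rh γ.dbl = γ.dbl := by
  rw [rh, shift_dbl, mul_one_div_cancel two_ne_zero, shift_one]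

theorem half_dbl (γ : G.Loop) : G.half γ.dbl = γ :=
  Loop.ext' (by rw [half, toLoop_T (half_isLoop (rh_dbl γ)), dbl_T]; ring) fun t => by
    rw [half, toLoop_ev (half_isLoop (rh_dbl γ)), dbl_ev]; congr 1; ring

theorem continuousOn_half (l : ℝ) : ContinuousOn G.half (G.Fx l) :=
  continuousOn_toLoop (fun γ h => half_isLoop h.2) (continuous_T.div_const 2).continuousOn
    (continuous_ev.comp (continuous_fst.prodMk (continuous_snd.div_const 2))).continuousOn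

theorem half_mem {l : ℝ} {c : Ch G.Loop} (h : c ∈ sup (G.Fx (2 * l))) : mp G.half c ∈ sup (G.Lt l) :=
  mp_mem h fun γ hγ => by
    have : γ.T < 2 * l := hγ.1
    show (G.half γ).T < l
    rw [half, toLoop_T (half_isLoop hγ.2)]
    linarith

theorem jC_mem {l : ℝ} {c : Ch G.Loop} (h : c ∈ sup (G.Lt l)) : G.jC c ∈ sup (G.Fx (2 * l)) :=
  mp_mem h fun γ hγ => ⟨by
    have : γ.T < l := hγ
    show 2 * γ.T < 2 * l
    linarith, rh_dbl γ⟩

theorem jC_half {l : ℝ} {c : Ch G.Loop} (h : c ∈ sup (G.Fx l)) : G.jC (mp G.half c) = c := by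
  rw [jC, mp_comp h (continuousOn_half l), mp_congr h fun γ hγ => dbl_half hγ.2, mp_id]

theorem half_jC (c : Ch G.Loop) : mp G.half (G.jC c) = c := by
  rw [jC, mp_comp (mem_sup_univ c) continuous_dbl.continuousOn]
  simp only [half_dbl, mp_id]

theorem Fx_mono {a b : ℝ} (h : a ≤ b) : G.Fx a ⊆ G.Fx b :=
  inter_subset_inter_left _ fun γ (hγ : γ.T < a) => hγ.trans_le h

/-- lowering the level of the fixed part -/
theorem lower_fix {a l : ℝ} (ha : 0 < a) (hal : a ≤ l) (hc : ∀ x ∈ G.critV, x ∉ Ico a l) {w : ℕ → Ch G.Loop}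
    (hD : PP (sup (G.Fx (2 * l))) (DT G.rh w)) :
    ∃ u, PP (sup (G.Fx (2 * l))) u ∧ PP (sup (G.Fx (2 * a))) (DT G.rh (w + u)) := by
  have h0 : ∀ i, dd (DT G.rh w i) = 0 := by
    rintro (_ | i)
    · exact hD.dd_zero
    · have := congrFun (G.inv_rh.DT_DT w) i
      rwa [DT, G.rh_Fx (hD i).2, add_self, add_zero] at this
  have h1 : ∀ i, ∃ v ∈ sup (G.Lt l), mp G.half (DT G.rh w i) + dd v ∈ sup (G.Lt a) := fun i =>
    G.const ha hal hc (half_mem (hD i).2) (by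
      rw [← mp_dd (hD i).2 (continuousOn_half _), h0, map_zero]; exact zero_mem _)
  choose v hv hv' using h1
  let u : ℕ → Ch G.Loop := fun i => Nat.casesOn i 0 fun i => pr (i + 1) (G.jC (v i))
  have hu : PP (sup (G.Fx (2 * l))) u := by
    rintro (_ | i)
    · exact ⟨map_zero _, zero_mem _⟩
    · exact ⟨hom_pr _ _, pr_mem _ (jC_mem (hv i))⟩
  refine ⟨u, hu, fun i => ?_⟩
  have e : DT G.rh (w + u) i = pr i (G.jC (mp G.half (DT G.rh w i) + dd (v i))) := by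
    rw [DT_add, Pi.add_apply, map_add, map_add, jC_half (hD i).2, (hD i).1, ← dd_jC, ← dd_pr]
    congr 1
    rw [DT, G.rh_Fx (hu i).2, add_self, add_zero]
  rw [e]
  exact ⟨hom_pr _ _, pr_mem _ (jC_mem (hv' i))⟩

theorem half_cast (m : ℕ) : ((2 * m : ℕ) : ℝ) * (1 / 2) = m := by push_cast; ring

theorem nodes_rh (m : ℕ) [NeZero (2 * m)] (γ : G.Loop) (k : ZMod (2 * m)) :
    G.nodes (2 * m) (G.rh γ) k = G.nodes (2 * m) γ (k + m) := by
  obtain ⟨z, rfl⟩ := ZMod.intCast_surjective k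
  have h : ((2 * m : ℕ) : ℝ) ≠ 0 := Nat.cast_ne_zero.2 (NeZero.ne _)
  rw [show (z : ZMod (2 * m)) + m = ((z + m : ℤ) : ZMod (2 * m)) by push_cast; rfl, nodes_intCast,
    nodes_intCast, rh, shift_ev]
  congr 1
  rw [Int.cast_add, Int.cast_natCast, add_div, ← half_cast m, mul_div_cancel_left₀ _ h]

theorem rh_uL (m : ℕ) [NeZero (2 * m)] {T : ℝ} {x : ZMod (2 * m) → M n} (h : (T, x) ∈ G.UDom (2 * m)) :
    G.rh (G.uL (2 * m) (T, x)) = G.uL (2 * m) (T, fun k => x (k + m)) := by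
  have h' : (T, fun k => x (k + m)) ∈ G.UDom (2 * m) :=
    ⟨fun k => by simpa only [add_right_comm k 1] using h.1 (k + m),
      fun k => by simpa only [add_right_comm k 1] using h.2 (k + m)⟩
  refine Loop.ext' (by rw [rh, shift_T, G.uL_T _ h, G.uL_T _ h']) fun t => ?_
  rw [rh, shift_ev, G.uL_ev _ h, G.uL_ev _ h']
  simp only [poly, mul_add, half_cast, Int.floor_add_natCast, Int.fract_add_natCast, Int.cast_add,
    Int.cast_natCast, add_right_comm _ (1 : ZMod (2 * m))]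

/-- the second homotopy: move the nodes to the midpoints -/
theorem exists_H2 (m : ℕ) [NeZero (2 * m)] {μ L η : ℝ} (hη : 0 < η) (hμ : 0 < μ)
    (h1 : μ + (2 * m : ℕ) * (G.cL * η) ≤ L) (h2 : L ≤ (2 * m : ℕ) * G.δ) :
    ∃ H : ℝ × G.Loop → G.Loop, ContinuousOn H (Icc 0 1 ×ˢ (G.Lt μ ∩ {γ | dist γ (G.rh γ) < η})) ∧
      MapsTo H (Icc 0 1 ×ˢ (G.Lt μ ∩ {γ | dist γ (G.rh γ) < η})) (G.Lt L) ∧
      (∀ u ∈ Icc (0 : ℝ) 1, ∀ γ ∈ G.Lt μ ∩ {γ | dist γ (G.rh γ) < η}, H (u, G.rh γ) = G.rh (H (u, γ))) ∧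
      ∀ γ ∈ G.Lt μ ∩ {γ | dist γ (G.rh γ) < η},
        H (0, γ) = G.uL (2 * m) (γ.T, G.nodes (2 * m) γ) ∧ G.rh (H (1, γ)) = H (1, γ) := by
  set W := G.Lt μ ∩ {γ | dist γ (G.rh γ) < η}
  have hN : (0 : ℝ) < (2 * m : ℕ) := Nat.cast_pos.2 (NeZero.pos _)
  have hc : 0 < G.cL := one_pos.trans_le G.one_le_cL
  let x := G.nodes (2 * m)
  let Φ : ℝ × G.Loop → ℝ × (ZMod (2 * m) → M n) := fun p =>
    (p.2.T + p.1 * ((2 * m : ℕ) * (G.cL * η)), fun k => G.gs (x p.2 k) (x p.2 (k + m)) (p.1 / 2))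
  have a1 : ∀ γ ∈ W, ∀ k, G.ρ (x γ k) (x γ (k + m)) < G.cL * η := fun γ hγ k => by
    refine (G.ρ_le _ _).trans_lt (mul_lt_mul_of_pos_left (lt_of_le_of_lt ?_ hγ.2) hc)
    simp only [x, ← nodes_rh]
    exact Loop.dist_ev_le _ _ _
  have a2 : ∀ γ ∈ W, ∀ k, G.ρ (x γ k) (x γ (k + m)) < G.δ := fun γ hγ k =>
    (a1 γ hγ k).trans_le (le_of_mul_le_mul_left (by linarith) hN)
  have a3 : ∀ p ∈ Icc (0 : ℝ) 1 ×ˢ W, (Φ p).1 < L := fun p hp => by
    have : p.2.T < μ := hp.2.1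
    have := mul_le_of_le_one_left (show 0 ≤ (2 * m : ℕ) * (G.cL * η) by positivity) hp.1.2
    simp only [Φ]
    linarith
  have a4 : MapsTo Φ (Icc 0 1 ×ˢ W) (G.UDom (2 * m)) := fun p hp => by
    have hu : p.1 / 2 ∈ Icc (0 : ℝ) 1 := ⟨by linarith [hp.1.1], by linarith [hp.1.2]⟩
    have b : ∀ k, G.ρ (x p.2 k) ((Φ p).2 k) ≤ p.1 / 2 * (G.cL * η) := fun k =>
      (G.ρ_gs_left (a2 _ hp.2 k) hu).trans_le (mul_le_mul_of_nonneg_left (a1 _ hp.2 k).le hu.1)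
    have b' : ∀ k, (2 * m : ℕ) * G.ρ ((Φ p).2 k) ((Φ p).2 (k + 1)) ≤ (Φ p).1 := fun k => by
      have c1 := G.ρ_tri ((Φ p).2 k) (x p.2 k) ((Φ p).2 (k + 1))
      have c2 := G.ρ_tri (x p.2 k) (x p.2 (k + 1)) ((Φ p).2 (k + 1))
      have c3 := (le_div_iff₀' hN).1 (G.ρ_nodes_le (2 * m) p.2 k)
      have c4 : G.ρ ((Φ p).2 k) ((Φ p).2 (k + 1)) ≤ G.ρ (x p.2 k) (x p.2 (k + 1)) + p.1 * (G.cL * η) := by
        linarith [b k, b (k + 1), G.ρ_comm ((Φ p).2 k) (x p.2 k)]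
      have c5 := mul_le_mul_of_nonneg_left c4 hN.le
      simp only [Φ, x] at c5 ⊢
      linarith
    exact ⟨fun k => lt_of_mul_lt_mul_left (((b' k).trans_lt (a3 p hp)).trans_le h2) hN.le, b'⟩
  have a5 : ContinuousOn Φ (Icc 0 1 ×ˢ W) := by
    have := G.continuous_nodes (2 * m)
    refine ContinuousOn.prodMk (Continuous.continuousOn ?_) (continuousOn_pi.2 fun k => ?_)
    · have := continuous_T (G := G)
      fun_prop
    · exact G.gs_cont.comp (f := fun p : ℝ × G.Loop => (x p.2 k, x p.2 (k + m), p.1 / 2))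
        (Continuous.continuousOn (by fun_prop)) fun p hp => a2 _ hp.2 k
  have hmm : ∀ k : ZMod (2 * m), k + m + m = k := fun k => by
    rw [add_assoc, ← Nat.cast_add, ← two_mul, ZMod.natCast_self, add_zero]
  refine ⟨fun p => G.uL (2 * m) (Φ p), (G.continuousOn_uL _).comp a5 a4, fun p hp => ?_,
    fun u hu γ hγ => ?_, fun γ hγ => ⟨?_, ?_⟩⟩
  · show (G.uL (2 * m) (Φ p)).T < L
    rw [G.uL_T _ (a4 hp)]
    exact a3 p hp
  · refine Eq.trans ?_ (rh_uL m (a4 (x := (u, γ)) ⟨hu, hγ⟩)).symm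
    simp only [Φ, x, nodes_rh]
    rfl
  · simp only [Φ, zero_mul, add_zero, zero_div, G.gs_zero _ _ (a2 γ hγ _)]
    rfl
  · refine (rh_uL m (a4 (x := (1, γ)) ⟨⟨zero_le_one, le_rfl⟩, hγ⟩)).trans ?_
    simp only [Φ, hmm]
    congr 2
    funext k
    rw [← G.gs_symm _ _ _ (a2 γ hγ k)]
    norm_num

/-- the localization theorem for the half rotation -/
theorem RA_fix {l : ℝ} (hl : 0 < l) : RA G.rh (sup (G.Lt (2 * l))) (sup (G.Fx (2 * l))) := by
  intro w hw hD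
  obtain ⟨e1, he1, h1⟩ := G.critV_isolated (2 * l)
  obtain ⟨e2, he2, h2⟩ := G.critV_isolated l
  obtain ⟨a, ha, hal, hb1, hb2⟩ : ∃ a, 0 < a ∧ a < l ∧ l - e1 / 2 ≤ a ∧ l - e2 ≤ a :=
    ⟨max (l / 2) (max (l - e1 / 2) (l - e2)), by positivity, by simp [*],
      le_max_of_le_right (le_max_left _ _), le_max_of_le_right (le_max_right _ _)⟩
  obtain ⟨m, hm⟩ := exists_nat_gt (l / G.δ)
  have hδ := G.δ_pos
  have hm' : 2 * l ≤ (2 * m : ℕ) * G.δ := by
    rw [div_lt_iff₀ hδ] at hm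
    push_cast
    linarith
  have hN : (0 : ℝ) < (2 * m : ℕ) := pos_of_mul_pos_left (by linarith) hδ.le
  have : NeZero (2 * m) := ⟨(Nat.cast_pos.1 hN).ne'⟩
  have hc : 0 < G.cL := one_pos.trans_le G.one_le_cL
  have hL : ∀ b, MapsTo G.rh (G.Lt b) (G.Lt b) := fun b γ h => h
  have hLt : ∀ {b b' : ℝ}, b ≤ b' → G.Lt b ⊆ G.Lt b' := fun h γ hγ => lt_of_lt_of_le hγ h
  set η := (2 * l - 2 * a) / (2 * m : ℕ) / G.cL with hη
  have hη0 : 0 < η := div_pos (div_pos (by linarith) hN) hc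
  set O := {γ | dist γ (G.rh γ) < η}
  have hO : IsOpen O := isOpen_lt (continuous_id.dist G.inv_rh.cont) continuous_const
  have hF : G.Fx (2 * a) ⊆ G.Lt (2 * a) ∩ O := fun γ h =>
    ⟨h.1, by show dist γ (G.rh γ) < η; rw [h.2, dist_self]; exact hη0⟩
  obtain ⟨u, hu, hD1⟩ := lower_fix ha hal.le (fun x hx hx' =>
    hx'.2.ne (h2 x hx (abs_le.2 ⟨by linarith [hx'.1], by linarith [hx'.2]⟩))) hD
  have R1 : RA G.rh (sup (G.Lt (2 * l))) (sup (G.Lt (2 * a))) :=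
    RA.of_acyclic G.inv_rh (fun c hc => mp_mem hc (hL _)) (fun c hc => mp_mem hc (hL _))
      (fun i c => pr_mem i) (fun i c => pr_mem i) fun c hc hd => G.const (by linarith) (by linarith)
        (fun x hx hx' => hx'.2.ne (h1 x hx (abs_le.2 ⟨by linarith [hx'.1], by linarith [hx'.2]⟩))) hc hd
  have R2 : RA G.rh (sup (G.Lt (2 * a))) (sup (G.Lt (2 * a) ∩ O)) :=
    RA.compact G.inv_rh (hL _) hO (fun γ h => show dist (G.rh γ) (G.rh (G.rh γ)) < η from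
      (dist_shift _ _ _).trans_lt h) ((isCompact_le (2 * a)).inter_right hO.isClosed_compl)
      (fun γ h e => h.2 (by show dist γ (G.rh γ) < η; rw [e, dist_self]; exact hη0)) fun γ h =>
        (em (γ ∈ O)).imp id fun h' => ⟨le_of_lt (α := ℝ) h, h'⟩
  obtain ⟨ξ, hξ, hw3⟩ := R1.trans G.inv_rh R2 (sup_mono inter_subset_left) (sup_mono (hLt (by linarith)))
    (w + u) (hw.add (hu.mono (sup_mono inter_subset_left))) (hD1.mono (sup_mono hF))
  have hD3 : PP (sup (G.Lt (2 * a) ∩ O ∩ {γ | G.rh γ = γ})) (DT G.rh (w + u + DT G.rh ξ)) := by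
    rw [DT_add, G.inv_rh.DT_DT, add_zero]
    exact hD1.mono (sup_mono fun γ h => ⟨hF h, h.2⟩)
  obtain ⟨B, b1, b2, b3, -⟩ := G.exists_B1 (2 * m)
  have hW : G.Lt (2 * a) ∩ O ⊆ G.Lt ((2 * m : ℕ) * G.δ) := inter_subset_left.trans (hLt (by linarith))
  obtain ⟨ξ1, hξ1, c1⟩ := hty_seq G.inv_rh (L := G.Lt (2 * l)) (b1.mono (prod_mono_right hW))
    (fun p hp => by
      have : p.2.T < 2 * a := hp.2.1
      show (B (p.1, p.2)).T < 2 * l
      rw [(b3 _ (hW hp.2) _ hp.1).1]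
      linarith) (fun u hu γ hγ => (b3 _ (hW hγ) u hu).2 (even_two_mul m)) hw3 hD3
  obtain ⟨H, d1, d2, d3, d4⟩ := exists_H2 m (L := 2 * l) hη0 (show 0 < 2 * a by linarith)
    (by rw [hη]; field_simp; linarith) hm'
  obtain ⟨ξ2, hξ2, c2⟩ := hty_seq G.inv_rh d1 d2 d3 hw3 hD3
  have c3 : PP (sup (G.Fx (2 * l))) fun i => mp (fun γ => H (1, γ)) ((w + u + DT G.rh ξ) i) := fun i =>
    ⟨by rw [← mp_pr, (hw3 i).1], mp_mem (hw3 i).2 fun γ hγ => ⟨d2 ⟨⟨zero_le_one, le_rfl⟩, hγ⟩, (d4 γ hγ).2⟩⟩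
  refine ⟨ξ + ξ1 + ξ2, (hξ.add hξ1).add hξ2, ?_⟩
  convert ((c1.add c2).add c3).add hu using 1
  · rfl
  funext i
  have hm3 : w i + u i + DT G.rh ξ i ∈ sup (G.Lt (2 * a) ∩ O) := (hw3 i).2
  simp only [Pi.add_apply]
  rw [mp_congr hm3 fun γ hγ => (b2 γ (hW hγ)).1, mp_id, mp_congr hm3 fun γ hγ => (b2 γ (hW hγ)).2,
    mp_congr hm3 fun γ hγ => (d4 γ hγ).1]
  generalize mp (fun γ => H (1, γ)) _ = p
  generalize mp (fun γ : G.Loop => G.uL _ _) _ = q
  simp only [DT_add, Pi.add_apply]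
  linear_combination (norm := abel) -add_self p - add_self q - add_self (u i)

end Setup
end Crest.Agent.R231
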